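import Vale.Agent.P030.Q.All

namespace Vale.Agent.Results.P030.SimultaneousMeasure

/-- Let `G = β(2)` be Catalan's constant and `β(4)` the next even beta value. (1) At least one of them is irrational.
(2) For all integers `p, r` and all integers `q ≥ 2`, `max(|G - p/q|, |β(4) - r/q|) ≥ exp(-C (log q)²)`; this implies
(1) and is a quantitative form of it. (3), (4) If one of the two numbers is rational, then the other one has such an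
irrationality measure. -/
theorem result :
    (Irrational (∑' j : ℕ, (-1 : ℝ) ^ j / (2 * (j : ℝ) + 1) ^ 2) ∨
      Irrational (∑' j : ℕ, (-1 : ℝ) ^ j / (2 * (j : ℝ) + 1) ^ 4)) ∧
    (∃ C : ℝ, 0 < C ∧ ∀ (p r : ℤ) (q : ℕ), 2 ≤ q →
      Real.exp (-(C * Real.log (q : ℝ) ^ 2)) ≤
        max |(∑' j : ℕ, (-1 : ℝ) ^ j / (2 * (j : ℝ) + 1) ^ 2) - (p : ℝ) / (q : ℝ)|
          |(∑' j : ℕ, (-1 : ℝ) ^ j / (2 * (j : ℝ) + 1) ^ 4) - (r : ℝ) / (q : ℝ)|) ∧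
    (¬ Irrational (∑' j : ℕ, (-1 : ℝ) ^ j / (2 * (j : ℝ) + 1) ^ 4) →
      ∃ C : ℝ, 0 < C ∧ ∀ (p : ℤ) (q : ℕ), 2 ≤ q → Real.exp (-(C * Real.log (q : ℝ) ^ 2)) ≤
        |(∑' j : ℕ, (-1 : ℝ) ^ j / (2 * (j : ℝ) + 1) ^ 2) - (p : ℝ) / (q : ℝ)|) ∧
    (¬ Irrational (∑' j : ℕ, (-1 : ℝ) ^ j / (2 * (j : ℝ) + 1) ^ 2) →
      ∃ C : ℝ, 0 < C ∧ ∀ (p : ℤ) (q : ℕ), 2 ≤ q → Real.exp (-(C * Real.log (q : ℝ) ^ 2)) ≤
        |(∑' j : ℕ, (-1 : ℝ) ^ j / (2 * (j : ℝ) + 1) ^ 4) - (p : ℝ) / (q : ℝ)|) :=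
  Vale.Agent.P030.Q.all_results

end Vale.Agent.Results.P030.SimultaneousMeasure
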